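import Vale.Agent.P125.Full.Main

/-! Nontrivial Markov type implies superreflexivity (answer to Q1). -/

namespace Vale.Agent.Results.P125.MarkovTypeSuperreflexive

open Vale.Agent.P125.Full

universe u

theorem result (X : Type u) [NormedAddCommGroup X] [NormedSpace ℝ X] [CompleteSpace X]
    (p : ℝ) (hp : 1 < p)
    (hMT : ∃ K : ℝ, 0 ≤ K ∧
      ∀ (S : Type) [Fintype S] [DecidableEq S] (π : S → ℝ) (P : Matrix S S ℝ),
        (∀ x, 0 ≤ π x) → (∑ x, π x = 1) → (∀ x y, 0 ≤ P x y) → (∀ x, ∑ y, P x y = 1) →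
        (∀ x y, π x * P x y = π y * P y x) →
        ∀ (f : S → X) (t : ℕ), 1 ≤ t →
          ∑ x, ∑ y, π x * (P ^ t) x y * ‖f y - f x‖ ^ p ≤
            K ^ p * t * ∑ x, ∑ y, π x * P x y * ‖f y - f x‖ ^ p) :
    ∃ (q : Seminorm ℝ X) (a b : ℝ), 0 < a ∧ 0 < b ∧
      (∀ x, a * ‖x‖ ≤ q x ∧ q x ≤ b * ‖x‖) ∧
      ∀ ε : ℝ, 0 < ε → ∃ δ : ℝ, 0 < δ ∧ ∀ x y : X, q x ≤ 1 → q y ≤ 1 → ε ≤ q (x - y) →
        q ((1 / 2 : ℝ) • (x + y)) ≤ 1 - δ :=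
  let ⟨_, hK, h⟩ := hMT
  hasUCNorm_of_markovType hp hK h

end Vale.Agent.Results.P125.MarkovTypeSuperreflexive
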