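import Vale.Agent.P125.GC.Tree

/-! The summing operator has nontrivial Markov type although it is not super weakly compact. -/

namespace Vale.Agent.Results.P125.SummingMarkovType

open Vale.Agent.P125.GC

theorem result :
    (∀ q : ℝ, 1 ≤ q → q < 9 / 8 → ∃ K : ℝ, 0 < K ∧
      ∀ (S : Type) [Fintype S] [DecidableEq S] (π : S → ℝ) (P : Matrix S S ℝ),
        (∀ x, 0 ≤ π x) → (∑ x, π x = 1) → (∀ x y, 0 ≤ P x y) → (∀ x, ∑ y, P x y = 1) →
        (∀ x y, π x * P x y = π y * P y x) →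
        ∀ (n : ℕ) (f : S → Fin n → ℝ) (t : ℕ), 1 ≤ t →
          ∑ x, ∑ y, π x * (P ^ t) x y * ‖(fun a : Fin n => ∑ i ∈ Finset.Iic a, (f y i - f x i))‖ ^ q ≤
            K ^ q * t * ∑ x, ∑ y, π x * P x y * (∑ i, |f y i - f x i|) ^ q) ∧
    (∀ N : ℕ, ∃ n : ℕ, ∃ x : ℕ → ℕ → Fin n → ℝ, ∀ d m : ℕ, d ≤ N → m < 2 ^ d →
      ∑ i, |x d m i| = 1 ∧ (d < N →
        x d m = (1 / 2 : ℝ) • (x (d + 1) (2 * m) + x (d + 1) (2 * m + 1)) ∧
        1 ≤ ‖(fun a : Fin n => ∑ i ∈ Finset.Iic a,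
            (x (d + 1) (2 * m) i - x (d + 1) (2 * m + 1) i))‖)) := by
  refine ⟨fun q hq1 hq => ?_, fun N => ⟨2 ^ N, node N, fun d m hd hm => node_spec N d m hd hm⟩⟩
  have hc : 0 ≤ 10240 * cq q :=
    mul_nonneg (by norm_num) (tsum_nonneg fun L => by positivity)
  refine ⟨(10240 * cq q + 1) ^ (q⁻¹), Real.rpow_pos_of_pos (by linarith) _, ?_⟩
  intro S _ _ π P hπ hπ1 hP hP1 hbal n f t ht
  let C : Chain S := ⟨π, fun x y => P x y, hπ, hπ1, hP, hP1, hbal⟩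
  have hC : mat C = P := by ext x y; rfl
  have h := chain_markovType C hq1 hq f ht
  rw [hC] at h
  rw [Real.rpow_inv_rpow (by linarith) (by linarith)]
  refine h.trans (mul_le_mul_of_nonneg_right ?_ ?_)
  · exact mul_le_mul_of_nonneg_right (by linarith) (Nat.cast_nonneg t)
  · exact Finset.sum_nonneg fun x _ => Finset.sum_nonneg fun y _ =>
      mul_nonneg (mul_nonneg (hπ x) (hP x y))
        (Real.rpow_nonneg (Finset.sum_nonneg fun i _ => abs_nonneg _) _)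

end Vale.Agent.Results.P125.SummingMarkovType
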